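import Vale.Agent.P036.Final

/-! Heilbronn's triangle problem: a power saving lower bound, and the negative answer to Q1. -/

namespace Vale.Agent.Results.P036.PowerGain

/-- The area of the triangle with vertices `p`, `q`, `r`. -/
noncomputable def area (p q r : ℝ × ℝ) : ℝ :=
  |(q.1 - p.1) * (r.2 - p.2) - (q.2 - p.2) * (r.1 - p.1)| / 2

/-- The point lies in the closed unit square. -/
def InSquare (p : ℝ × ℝ) : Prop := p.1 ∈ Set.Icc (0 : ℝ) 1 ∧ p.2 ∈ Set.Icc (0 : ℝ) 1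

/-- The least area of a triangle spanned by three distinct points of `P`. -/
noncomputable def deltaSet (P : Finset (ℝ × ℝ)) : ℝ :=
  sInf {a : ℝ | ∃ p ∈ P, ∃ q ∈ P, ∃ r ∈ P, p ≠ q ∧ q ≠ r ∧ p ≠ r ∧ a = area p q r}

/-- The Heilbronn function: the supremum over `n`-point subsets of the unit square. -/
noncomputable def delta (n : ℕ) : ℝ :=
  sSup {d : ℝ | ∃ P : Finset (ℝ × ℝ), (∀ p ∈ P, InSquare p) ∧ P.card = n ∧ d = deltaSet P}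

theorem area_le_one {p q r : ℝ × ℝ} (hp : InSquare p) (hq : InSquare q) (hr : InSquare r) :
    area p q r ≤ 1 := by
  obtain ⟨⟨a1, a2⟩, a3, a4⟩ := hp
  obtain ⟨⟨b1, b2⟩, b3, b4⟩ := hq
  obtain ⟨⟨c1, c2⟩, c3, c4⟩ := hr
  have e1 : |q.1 - p.1| ≤ 1 := abs_le.mpr ⟨by linarith, by linarith⟩
  have e2 : |r.2 - p.2| ≤ 1 := abs_le.mpr ⟨by linarith, by linarith⟩
  have e3 : |q.2 - p.2| ≤ 1 := abs_le.mpr ⟨by linarith, by linarith⟩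
  have e4 : |r.1 - p.1| ≤ 1 := abs_le.mpr ⟨by linarith, by linarith⟩
  have f1 := mul_le_one₀ e1 (abs_nonneg _) e2
  have f2 := mul_le_one₀ e3 (abs_nonneg _) e4
  have g := abs_sub ((q.1 - p.1) * (r.2 - p.2)) ((q.2 - p.2) * (r.1 - p.1))
  rw [abs_mul, abs_mul] at g
  unfold area
  linarith

theorem le_delta {n : ℕ} (hn : 3 ≤ n) {c : ℝ} {P : Finset (ℝ × ℝ)} (h1 : P.card = n)
    (h2 : ∀ p ∈ P, InSquare p)
    (h3 : ∀ p ∈ P, ∀ q ∈ P, ∀ r ∈ P, p ≠ q → q ≠ r → p ≠ r → c ≤ area p q r) : c ≤ delta n := by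
  have hb : BddAbove {d : ℝ | ∃ P : Finset (ℝ × ℝ), (∀ p ∈ P, InSquare p) ∧ P.card = n ∧
      d = deltaSet P} := by
    refine ⟨1, ?_⟩
    rintro d ⟨P', a1, a2, rfl⟩
    obtain ⟨p, q, r, hp, hq, hr, hpq, hpr, hqr⟩ :=
      Finset.two_lt_card_iff.mp (show 2 < P'.card by omega)
    refine le_trans (csInf_le ⟨0, ?_⟩ ⟨p, hp, q, hq, r, hr, hpq, hqr, hpr, rfl⟩)
      (area_le_one (a1 p hp) (a1 q hq) (a1 r hr))
    rintro a ⟨p, -, q, -, r, -, -, -, -, rfl⟩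
    unfold area
    positivity
  refine le_trans ?_ (le_csSup hb ⟨P, h2, h1, rfl⟩)
  obtain ⟨p, q, r, hp, hq, hr, hpq, hpr, hqr⟩ :=
    Finset.two_lt_card_iff.mp (show 2 < P.card by omega)
  refine le_csInf ⟨_, p, hp, q, hq, r, hr, hpq, hqr, hpr, rfl⟩ ?_
  rintro a ⟨p, hp, q, hq, r, hr, hpq, hqr, hpr, rfl⟩
  exact h3 p hp q hq r hr hpq hqr hpr

theorem result :
    (∃ η : ℝ, 0 < η ∧ ∃ n₀ : ℕ, ∀ n : ℕ, n₀ ≤ n →
      (∃ P : Finset (ℝ × ℝ), P.card = n ∧ (∀ p ∈ P, InSquare p) ∧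
        ∀ p ∈ P, ∀ q ∈ P, ∀ r ∈ P, p ≠ q → q ≠ r → p ≠ r → (n : ℝ) ^ (-2 + η) ≤ area p q r) ∧
      (n : ℝ) ^ (-2 + η) ≤ delta n) ∧
    ¬ (∀ ε : ℝ, 0 < ε → ∃ (C : ℝ) (n₀ : ℕ), ∀ n : ℕ, n₀ ≤ n →
      delta n ≤ C * (n : ℝ) ^ (-2 + ε)) := by
  obtain ⟨η, hη, n₀, h⟩ := Vale.Agent.P036.main
  have key : ∀ n : ℕ, n₀ + 3 ≤ n →
      (∃ P : Finset (ℝ × ℝ), P.card = n ∧ (∀ p ∈ P, InSquare p) ∧
        ∀ p ∈ P, ∀ q ∈ P, ∀ r ∈ P, p ≠ q → q ≠ r → p ≠ r → (n : ℝ) ^ (-2 + η) ≤ area p q r) ∧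
      (n : ℝ) ^ (-2 + η) ≤ delta n := by
    intro n hn
    obtain ⟨P, a1, a2, a3⟩ := h n (by omega)
    exact ⟨⟨P, a1, a2, a3⟩, le_delta (by omega) a1 a2 a3⟩
  refine ⟨⟨η, hη, n₀ + 3, key⟩, fun hQ => ?_⟩
  obtain ⟨C, n₁, hC⟩ := hQ (η / 2) (by positivity)
  have ht : Filter.Tendsto (fun n : ℕ => (n : ℝ) ^ (η / 2)) Filter.atTop Filter.atTop :=
    (tendsto_rpow_atTop (by positivity)).comp tendsto_natCast_atTop_atTop
  obtain ⟨n, hn1, hn2⟩ :=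
    ((ht.eventually_gt_atTop C).and (Filter.eventually_ge_atTop (n₀ + 3 + n₁))).exists
  have hn0 : (0 : ℝ) < n := by exact_mod_cast (show 0 < n by omega)
  have e1 := (key n (by omega)).2.trans (hC n (by omega))
  rw [show -2 + η = η / 2 + (-2 + η / 2) by ring, Real.rpow_add hn0] at e1
  have e2 := le_of_mul_le_mul_right e1 (Real.rpow_pos_of_pos hn0 _)
  linarith

end Vale.Agent.Results.P036.PowerGain
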